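import Vale.Agent.P078.State.Assembly
import Vale.Agent.P078.State.Split
import Vale.Agent.P078.State.Noise

/-!
So-paving with `C ε⁻²` pieces over every MASA of every von Neumann algebra.
-/

namespace Vale.Agent.Results.P078.MasaSoPaving

open Vale.Agent.P078 Vale.Agent.P078.MKS Vale.Agent.P078.Singular Vale.Agent.P078.State

/-- Every MASA of every von Neumann algebra has so-paving with `C ε⁻²` pieces. -/
theorem result :
    ∃ C : ℕ, ∀ (H : Type) [NormedAddCommGroup H] [InnerProductSpace ℂ H] [CompleteSpace H]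
      (M A : VonNeumannAlgebra H), IsMASA M A →
      ∀ x ∈ M, IsSelfAdjoint x → ∀ (ε : ℝ) (r : ℕ), 0 < ε → ε < 1 → (C : ℝ) ≤ ε ^ 2 * r →
        SoPavable M A 1 x ε r :=
  masa_paving split_ok general_noise_ok

end Vale.Agent.Results.P078.MasaSoPaving
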