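import Vale.Agent.P078.Singular.Main

/-!
So-paving with O(1/ε) pieces for MASAs without normal central functionals in an arbitrary von
Neumann algebra, the reduction of every MASA to the complementary corner, and sharpness.
-/

namespace Vale.Agent.Results.P078.SingularMasaPaving

open Vale.Agent.P078.Singular

theorem result :
    ∀ (H : Type) [NormedAddCommGroup H] [InnerProductSpace ℂ H] [CompleteSpace H]
      (M A : VonNeumannAlgebra H),
      (∀ y ∈ A, y ∈ M) →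
      (∀ y ∈ A, ∀ z ∈ A, y * z = z * y) →
      (∀ y ∈ M, (∀ z ∈ A, z * y = y * z) → y ∈ A) →
      (∀ p₀ ∈ A, IsStarProjection p₀ → (∀ f, IsNormalCentral M A f → f p₀ = 0) →
        ∀ x ∈ M, IsSelfAdjoint x → ∀ (ε : ℝ) (r : ℕ), 1 < ε * r →
          SoPavable M A p₀ (p₀ * x * p₀) ε r) ∧
      (∃ p₀ ∈ A, IsStarProjection p₀ ∧ (∀ f, IsNormalCentral M A f → f p₀ = 0) ∧
        (∀ e ∈ A, IsStarProjection e → e * p₀ = 0 → e ≠ 0 →
          ∃ f, IsNormalCentral M A f ∧ f e ≠ 0) ∧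
        ∀ x ∈ M, IsSelfAdjoint x → ∀ (ε : ℝ) (r s : ℕ), 1 < ε * r →
          SoPavable M A (1 - p₀) ((1 - p₀) * x * (1 - p₀)) ε s → SoPavable M A 1 x ε (r + s)) ∧
      ((∀ p ∈ A, IsStarProjection p → p ≠ 0 →
          ∃ e ∈ A, IsStarProjection e ∧ e * p = e ∧ e ≠ 0 ∧ e ≠ p) →
        (∀ (F : Finset H) (δ : ℝ), 0 < δ → ∃ q ∈ M, IsStarProjection q ∧
          FiniteDimensional ℂ q.range ∧ ∀ ξ ∈ F, ‖(1 - q) ξ‖ < δ) →
        (∀ f, IsNormalCentral M A f → f 1 = 0) ∧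
        (Nontrivial H → (∀ y : H →L[ℂ] H, y ∈ M) → ∀ (ε : ℝ) (r : ℕ), 2 * ε * r < 1 →
          ∃ x ∈ M, IsSelfAdjoint x ∧ ¬ SoPavable M A 1 x ε r)) :=
  main

end Vale.Agent.Results.P078.SingularMasaPaving
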